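import Vale.Agent.P229.Main

/-!
P229: a smooth metric on the plane with no local smooth isometric immersion into three-space.
-/

namespace Vale.Agent.Results.P229.NoLocalImmersion

open scoped ContDiff RealInnerProductSpace

/-- There is a smooth Riemannian metric on the plane such that no open neighbourhood of the origin
admits a smooth isometric immersion into Euclidean three-space. -/
theorem result :
    ∃ E F G : ℝ × ℝ → ℝ,
      ContDiff ℝ ∞ E ∧ ContDiff ℝ ∞ F ∧ ContDiff ℝ ∞ G ∧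
      (∀ x, 0 < E x ∧ F x ^ 2 < E x * G x) ∧
      ∀ U : Set (ℝ × ℝ), IsOpen U → (0 : ℝ × ℝ) ∈ U →
        ¬ ∃ f : ℝ × ℝ → EuclideanSpace ℝ (Fin 3), ContDiffOn ℝ ∞ f U ∧
          ∀ x ∈ U,
            ⟪fderiv ℝ f x (1, 0), fderiv ℝ f x (1, 0)⟫ = E x ∧
            ⟪fderiv ℝ f x (1, 0), fderiv ℝ f x (0, 1)⟫ = F x ∧
            ⟪fderiv ℝ f x (0, 1), fderiv ℝ f x (0, 1)⟫ = G x :=
  Vale.Agent.P229.final

end Vale.Agent.Results.P229.NoLocalImmersion
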